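import Vale.Agent.P153DN.Defs

/-!
Fourier series in a disc.
-/

set_option autoImplicit false

namespace Vale.Agent.P153D

open MeasureTheory Filter Topology Set Complex
open scoped FourierTransform

theorem one_le_wt (k : Fin 2 → ℤ) : 1 ≤ wt k := by
  have h1 := abs_nonneg (k 0 : ℝ)
  have h2 := abs_nonneg (k 1 : ℝ)
  unfold wt
  linarith

theorem summable_wt : Summable fun k => (wt k ^ 3)⁻¹ := by
  have h := EisensteinSeries.summable_one_div_norm_rpow (k := 3) (by norm_num)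
  refine Summable.of_norm_bounded_eventually h ?_
  filter_upwards [(finite_singleton (0 : Fin 2 → ℤ)).compl_mem_cofinite] with k hk
  have h0 : 0 < ‖k‖ := norm_pos_iff.2 hk
  have h1 : ‖k‖ ≤ wt k := by
    have h2 := abs_nonneg (k 0 : ℝ)
    have h3 := abs_nonneg (k 1 : ℝ)
    refine (pi_norm_le_iff_of_nonneg (zero_le_one.trans (one_le_wt k))).2 fun i => ?_
    rw [Int.norm_eq_abs]
    unfold wt
    fin_cases i
    · show |(k 0 : ℝ)| ≤ _
      linarith
    · show |(k 1 : ℝ)| ≤ _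
      linarith
  have h2 : 0 < wt k := one_pos.trans_le (one_le_wt k)
  rw [Real.norm_eq_abs, abs_of_pos (by positivity), Real.rpow_neg h0.le]
  have h3 : ‖k‖ ^ (3 : ℝ) = ‖k‖ ^ 3 := by exact_mod_cast Real.rpow_natCast ‖k‖ 3
  rw [h3]
  gcongr

/-- The representative of a point of the circle. -/
noncomputable def rp (t : UnitAddCircle) : ℝ := (AddCircle.equivIoc 1 (-1 / 2) t).1

theorem rp_mem (t : UnitAddCircle) : rp t ∈ Ioc (-1 / 2 : ℝ) (-1 / 2 + 1) :=
  (AddCircle.equivIoc 1 (-1 / 2) t).2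

theorem rp_coe {x : ℝ} (hx : x ∈ Ioc (-1 / 2 : ℝ) (-1 / 2 + 1)) : rp x = x := by
  rw [rp, AddCircle.equivIoc_coe_eq hx]

theorem coe_rp (t : UnitAddCircle) : (rp t : UnitAddCircle) = t := AddCircle.coe_equivIoc

theorem abs_rp (t : UnitAddCircle) : |rp t| = ‖t‖ := by
  have h := rp_mem t
  conv_rhs => rw [← coe_rp t]
  refine ((AddCircle.norm_coe_eq_abs_iff 1 one_ne_zero).2 ?_).symm
  rw [abs_one, abs_le]
  constructor <;> linarith [h.1, h.2]

theorem rp_cont {t : UnitAddCircle} (ht : ‖t‖ < 1 / 2) : ContinuousAt rp t := by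
  refine continuous_subtype_val.continuousAt.comp (AddCircle.continuousAt_equivIoc 1 _ ?_)
  rintro rfl
  have h := (AddCircle.norm_coe_eq_abs_iff 1 (x := -1 / 2) one_ne_zero).2 (by
    rw [abs_one, abs_of_neg (by norm_num)]
    norm_num)
  rw [h, abs_of_neg (by norm_num)] at ht
  norm_num at ht

variable {r : ℝ} {φ : ℂ → ℝ}

theorem zero_of (hr : 0 < r) (hs : tsupport φ ⊆ Metric.ball 0 r) {a b : ℝ}
    (h : 1 / 4 ≤ |a| ∨ 1 / 4 ≤ |b|) : φ ((4 * r) • ((a : ℂ) + b * I)) = 0 := by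
  by_contra h0
  have h1 := hs (subset_tsupport _ h0)
  rw [mem_ball_zero_iff, norm_smul, Real.norm_eq_abs, abs_of_pos (by positivity)] at h1
  have h2 : |a| ≤ ‖(a : ℂ) + b * I‖ := by simpa using abs_re_le_norm ((a : ℂ) + b * I)
  have h3 : |b| ≤ ‖(a : ℂ) + b * I‖ := by simpa using abs_im_le_norm ((a : ℂ) + b * I)
  rcases h with h | h <;> nlinarith

/-- The function on the torus. -/
noncomputable def per (hr : 0 < r) (hφ : Continuous φ) (hs : tsupport φ ⊆ Metric.ball 0 r) :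
    C(UnitAddTorus (Fin 2), ℂ) where
  toFun t := φ ((4 * r) • ((rp (t 0) : ℂ) + rp (t 1) * I))
  continuous_toFun := by
    refine continuous_iff_continuousAt.2 fun t => ?_
    by_cases h : 1 / 4 < ‖t 0‖ ∨ 1 / 4 < ‖t 1‖
    · have h0 : ∀ i : Fin 2, IsOpen {t : UnitAddTorus (Fin 2) | 1 / 4 < ‖t i‖} := fun i =>
        isOpen_lt continuous_const (continuous_apply i).norm
      have h1 : IsOpen {t : UnitAddTorus (Fin 2) | 1 / 4 < ‖t 0‖ ∨ 1 / 4 < ‖t 1‖} :=
        (h0 0).union (h0 1)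
      refine (continuousAt_const (y := (0 : ℂ))).congr ?_
      filter_upwards [h1.mem_nhds h] with u hu
      rw [zero_of hr hs (by rw [abs_rp, abs_rp]; exact hu.imp le_of_lt le_of_lt), ofReal_zero]
    · push Not at h
      have h0 : ContinuousAt (fun u : UnitAddTorus (Fin 2) => rp (u 0)) t :=
        (rp_cont (by linarith [h.1])).comp (f := fun u : UnitAddTorus (Fin 2) => u 0)
          (continuous_apply 0).continuousAt
      have h1 : ContinuousAt (fun u : UnitAddTorus (Fin 2) => rp (u 1)) t :=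
        (rp_cont (by linarith [h.2])).comp (f := fun u : UnitAddTorus (Fin 2) => u 1)
          (continuous_apply 1).continuousAt
      have h2 : Continuous fun x : ℝ × ℝ => (φ ((4 * r) • ((x.1 : ℂ) + x.2 * I)) : ℂ) := by
        fun_prop
      exact h2.continuousAt.comp (f := fun u : UnitAddTorus (Fin 2) => (rp (u 0), rp (u 1)))
        (h0.prodMk h1)

theorem mF (k : Fin 2 → ℤ) (x : Fin 2 → ℝ) :
    UnitAddTorus.mFourier k (fun i => (x i : UnitAddCircle)) =
      exp ((2 * Real.pi * (k 0 * x 0 + k 1 * x 1) : ℝ) * I) := by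
  show ∏ i : Fin 2, fourier (k i) (x i : UnitAddCircle) = _
  rw [Fin.prod_univ_two, fourier_coe_apply, fourier_coe_apply, ← exp_add]
  congr 1
  push_cast
  ring

theorem coef (hr : 0 < r) (hφ : Continuous φ) (hs : tsupport φ ⊆ Metric.ball 0 r)
    (k : Fin 2 → ℤ) : UnitAddTorus.mFourierCoeff (per hr hφ hs) k =
      (((4 * r) ^ 2)⁻¹ : ℝ) • 𝓕 (fun z => (φ z : ℂ)) ((4 * r)⁻¹ • ((k 0 : ℂ) + k 1 * I)) := by
  let G : ℂ → ℂ := fun v =>
    exp ((-2 * Real.pi * inner ℝ v ((4 * r)⁻¹ • ((k 0 : ℂ) + k 1 * I)) : ℝ) * I) • (φ v : ℂ)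
  have h1 := Measure.integral_comp_smul (volume : Measure ℂ) G (4 * r)
  rw [finrank_real_complex, abs_of_pos (by positivity)] at h1
  rw [Real.fourier_eq', ← h1, UnitAddTorus.mFourierCoeff_eq_integral _ _ fun _ => -1 / 2,
    ← volume_preserving_equiv_pi.symm.integral_comp' (g := fun x => G ((4 * r) • x)),
    ← setIntegral_eq_integral_of_forall_compl_eq_zero (μ := volume)
      (f := fun x : Fin 2 → ℝ => G ((4 * r) • measurableEquivPi.symm x))
      (s := {x : Fin 2 → ℝ | ∀ i, x i ∈ Ioc (-1 / 2 : ℝ) (-1 / 2 + 1)})]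
  · refine setIntegral_congr_fun (MeasurableSet.univ_pi' (fun _ : Fin 2 =>
      (measurableSet_Ioc : MeasurableSet (Ioc (-1 / 2 : ℝ) (-1 / 2 + 1))))) fun x hx => ?_
    show _ = exp ((-2 * Real.pi * inner ℝ ((4 * r) • ((x 0 : ℂ) + x 1 * I))
      ((4 * r)⁻¹ • ((k 0 : ℂ) + k 1 * I)) : ℝ) * I) • (φ ((4 * r) • ((x 0 : ℂ) + x 1 * I)) : ℂ)
    rw [mF]
    have h2 : per hr hφ hs (fun i => (x i : UnitAddCircle)) =
        φ ((4 * r) • ((x 0 : ℂ) + x 1 * I)) := by
      show (φ ((4 * r) • ((rp (x 0 : UnitAddCircle) : ℂ) + rp (x 1 : UnitAddCircle) * I)) : ℂ) = _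
      rw [rp_coe (hx 0), rp_coe (hx 1)]
    rw [h2]
    congr 4
    rw [real_inner_smul_left, real_inner_smul_right, Complex.inner]
    simp only [Pi.neg_apply]
    have h3 : (4 * r) ≠ 0 := by positivity
    simp
    field_simp
    ring
  · intro x hx
    show _ • (φ ((4 * r) • ((x 0 : ℂ) + x 1 * I)) : ℂ) = 0
    rw [zero_of hr hs, ofReal_zero, smul_zero]
    by_contra h
    push Not at h
    refine hx fun i => ?_
    have h1 := abs_lt.1 h.1
    have h2 := abs_lt.1 h.2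
    fin_cases i
    · exact ⟨show -1 / 2 < x 0 by linarith, show x 0 ≤ -1 / 2 + 1 by linarith⟩
    · exact ⟨show -1 / 2 < x 1 by linarith, show x 1 ≤ -1 / 2 + 1 by linarith⟩

theorem dec (hφ : ContDiff ℝ ((⊤ : ℕ∞) : WithTop ℕ∞) φ) (hs : tsupport φ ⊆ Metric.ball 0 r)
    {m : ℕ} {B : ℝ} (hB : Bd m φ B) (w : ℂ) {n : ℕ} (hn : n ≤ m) :
    ‖w‖ ^ n * ‖𝓕 (fun z => (φ z : ℂ)) w‖ ≤
      2 ^ n * ((n + 1) * (B * volume.real (Metric.ball (0 : ℂ) r))) := by
  have hc : HasCompactSupport φ :=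
    (isCompact_closedBall 0 r).of_isClosed_subset (isClosed_tsupport φ)
      (hs.trans Metric.ball_subset_closedBall)
  have hg : ContDiff ℝ ((⊤ : ℕ∞) : WithTop ℕ∞) (fun z => (φ z : ℂ)) :=
    ofRealCLM.contDiff.comp hφ
  have hN : ∀ (i : ℕ) (x : ℂ), ‖iteratedFDeriv ℝ i (fun z => (φ z : ℂ)) x‖ =
      ‖iteratedFDeriv ℝ i φ x‖ := fun i x =>
    ofRealLI.norm_iteratedFDeriv_comp_left (f := φ) hφ.contDiffAt (by exact_mod_cast le_top)
  have h1 := Real.pow_mul_norm_iteratedFDeriv_fourier_le (K := 0) (N := ⊤) hg (fun k n _ _ => by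
    simp only [hN]
    refine Continuous.integrable_of_hasCompactSupport ?_ ?_
    · exact (continuous_norm.pow k).mul
        (hφ.continuous_iteratedFDeriv (by exact_mod_cast le_top)).norm
    · exact (hc.iteratedFDeriv n).norm.mul_left) (k := 0) (n := n) le_rfl le_top w
  simp only [hN, norm_iteratedFDeriv_zero, pow_zero, one_mul, zero_add, Finset.range_one,
    Nat.cast_zero, mul_zero, Finset.singleton_product, Finset.sum_map,
    Function.Embedding.coeFn_mk] at h1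
  refine h1.trans (mul_le_mul_of_nonneg_left ?_ (by positivity))
  have h2 : ∀ i ∈ Finset.range (n + 1), ∫ v : ℂ, ‖iteratedFDeriv ℝ i φ v‖ ≤
      B * volume.real (Metric.ball (0 : ℂ) r) := by
    intro i hi
    rw [← setIntegral_eq_integral_of_forall_compl_eq_zero (s := Metric.ball (0 : ℂ) r)]
    · refine (Real.le_norm_self _).trans (norm_setIntegral_le_of_norm_le_const
        measure_ball_lt_top fun x _ => ?_)
      rw [norm_norm]
      exact hB i ((Nat.lt_succ_iff.1 (Finset.mem_range.1 hi)).trans hn) x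
    · intro x hx
      rw [norm_eq_zero]
      by_contra h
      exact hx (hs (support_iteratedFDeriv_subset i h))
  have h3 := Finset.sum_le_card_nsmul _ _ _ h2
  rw [Finset.card_range, nsmul_eq_mul, Nat.cast_succ] at h3
  exact h3

theorem fou2 : Vale.Agent.P153DN.FOU2 := by
  intro r hr
  set v := volume.real (Metric.ball (0 : ℂ) r) with hv
  have hv0 : 0 ≤ v := measureReal_nonneg
  refine ⟨fun m => ((4 * r) ^ 2)⁻¹ * (2 ^ (m - 1) * ((1 + (8 * r) ^ m * (2 ^ m * (m + 1))) * v)),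
    fun φ hφ hs => ?_⟩
  have key : ∀ m B, Bd m φ B → ∀ k, ‖UnitAddTorus.mFourierCoeff (per hr hφ.continuous hs) k‖ *
      wt k ^ m ≤ ((4 * r) ^ 2)⁻¹ *
        (2 ^ (m - 1) * ((1 + (8 * r) ^ m * (2 ^ m * (m + 1))) * v)) * B := by
    intro m B hB k
    rw [coef, norm_smul, Real.norm_eq_abs, abs_of_pos (by positivity)]
    set w : ℂ := (4 * r)⁻¹ • ((k 0 : ℂ) + k 1 * I) with hw
    have h0 := dec hφ hs hB w (Nat.zero_le m)
    have h1 := dec hφ hs hB w le_rfl
    rw [← hv] at h0 h1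
    set y := ‖𝓕 (fun z => (φ z : ℂ)) w‖ with hy
    have hy0 : 0 ≤ y := norm_nonneg _
    have h2 : wt k ≤ 1 + 8 * r * ‖w‖ := by
      have h3 : |(k 0 : ℝ)| ≤ ‖(k 0 : ℂ) + k 1 * I‖ := by
        simpa using abs_re_le_norm ((k 0 : ℂ) + k 1 * I)
      have h4 : |(k 1 : ℝ)| ≤ ‖(k 0 : ℂ) + k 1 * I‖ := by
        simpa using abs_im_le_norm ((k 0 : ℂ) + k 1 * I)
      have h5 : 8 * r * ‖w‖ = 2 * ‖(k 0 : ℂ) + k 1 * I‖ := by
        rw [hw, norm_smul, Real.norm_eq_abs, abs_of_pos (by positivity)]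
        field_simp
        ring
      unfold wt
      linarith
    have h3 : wt k ^ m ≤ 2 ^ (m - 1) * (1 + (8 * r) ^ m * ‖w‖ ^ m) := by
      have h4 := add_pow_le (zero_le_one (α := ℝ)) (show 0 ≤ 8 * r * ‖w‖ by positivity) m
      rw [one_pow, mul_pow (8 * r)] at h4
      exact (pow_le_pow_left₀ (zero_le_one.trans (one_le_wt k)) h2 m).trans h4
    simp only [pow_zero, one_mul, Nat.cast_zero, zero_add] at h0
    have h4 : (8 * r) ^ m * (‖w‖ ^ m * y) ≤ (8 * r) ^ m * (2 ^ m * ((m + 1) * (B * v))) := by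
      gcongr
    have h5 : y * wt k ^ m ≤ 2 ^ (m - 1) * (B * v + (8 * r) ^ m * (2 ^ m * ((m + 1) * (B * v)))) :=
      calc y * wt k ^ m ≤ y * (2 ^ (m - 1) * (1 + (8 * r) ^ m * ‖w‖ ^ m)) := by gcongr
        _ = 2 ^ (m - 1) * (y + (8 * r) ^ m * (‖w‖ ^ m * y)) := by ring
        _ ≤ _ := by gcongr
    calc _ = ((4 * r) ^ 2)⁻¹ * (y * wt k ^ m) := by ring
      _ ≤ ((4 * r) ^ 2)⁻¹ *
          (2 ^ (m - 1) * (B * v + (8 * r) ^ m * (2 ^ m * ((m + 1) * (B * v))))) := by gcongr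
      _ = _ := by ring
  refine ⟨UnitAddTorus.mFourierCoeff (per hr hφ.continuous hs), fun x hx => ?_, key⟩
  have hc : HasCompactSupport φ :=
    (isCompact_closedBall 0 r).of_isClosed_subset (isClosed_tsupport φ)
      (hs.trans Metric.ball_subset_closedBall)
  have hB : ∃ B, Bd 3 φ B := by
    have h1 : ∀ i : ℕ, ∃ C, ∀ x, ‖iteratedFDeriv ℝ i φ x‖ ≤ C := fun i =>
      (hφ.continuous_iteratedFDeriv (by exact_mod_cast le_top)).bounded_above_of_compact_support
        (hc.iteratedFDeriv i)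
    choose C hC using h1
    refine ⟨∑ i ∈ Finset.range 4, |C i|, fun i hi x => (hC i x).trans ((le_abs_self _).trans ?_)⟩
    exact Finset.single_le_sum (f := fun i => |C i|) (fun i _ => abs_nonneg _)
      (Finset.mem_range.2 (Nat.lt_succ_of_le hi))
  obtain ⟨B, hB⟩ := hB
  have hS : Summable (UnitAddTorus.mFourierCoeff (per hr hφ.continuous hs)) := by
    refine Summable.of_norm_bounded (summable_wt.mul_left (((4 * r) ^ 2)⁻¹ *
      (2 ^ (3 - 1) * ((1 + (8 * r) ^ 3 * (2 ^ 3 * ((3 : ℕ) + 1))) * v)) * B)) fun k => ?_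
    have h1 : 0 < wt k := one_pos.trans_le (one_le_wt k)
    rw [← div_eq_mul_inv, le_div_iff₀ (by positivity)]
    exact key 3 B hB k
  have h1 := UnitAddTorus.hasSum_mFourier_series_apply_of_summable hS
    fun i => ((![x.re / (4 * r), x.im / (4 * r)] i : ℝ) : UnitAddCircle)
  rw [mem_ball_zero_iff] at hx
  have h2 : ∀ a : ℝ, |a| < r → a / (4 * r) ∈ Ioc (-1 / 2 : ℝ) (-1 / 2 + 1) := by
    intro a ha
    have h3 := abs_lt.1 ha
    constructor
    · rw [lt_div_iff₀ (by positivity)]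
      linarith
    · rw [div_le_iff₀ (by positivity)]
      linarith
  have h3 : per hr hφ.continuous hs
      (fun i => ((![x.re / (4 * r), x.im / (4 * r)] i : ℝ) : UnitAddCircle)) = φ x := by
    show (φ ((4 * r) • ((rp ((x.re / (4 * r) : ℝ) : UnitAddCircle) : ℂ) +
      rp ((x.im / (4 * r) : ℝ) : UnitAddCircle) * I)) : ℂ) = _
    rw [rp_coe (h2 _ ((abs_re_le_norm x).trans_lt hx)),
      rp_coe (h2 _ ((abs_im_le_norm x).trans_lt hx))]
    congr 2
    have h4 : (r : ℂ) ≠ 0 := by exact_mod_cast hr.ne'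
    rw [real_smul]
    conv_rhs => rw [← re_add_im x]
    push_cast
    field_simp
  rw [h3] at h1
  have h4 : (fun k => UnitAddTorus.mFourierCoeff (per hr hφ.continuous hs) k *
      exp (th (4 * r) k x * I)) = fun k => UnitAddTorus.mFourierCoeff (per hr hφ.continuous hs) k •
        UnitAddTorus.mFourier k
          fun i => ((![x.re / (4 * r), x.im / (4 * r)] i : ℝ) : UnitAddCircle) := by
    funext k
    rw [mF, smul_eq_mul]
    congr 4
    simp only [th, Matrix.cons_val_zero, Matrix.cons_val_one]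
    ring
  rw [h4]
  exact h1

end Vale.Agent.P153D
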