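import Vale.Agent.P153D.Props

/-!
Random families which are tight when paired with each rapidly decreasing family are uniformly of
polynomial growth.
-/

set_option autoImplicit false

namespace Vale.Agent.P153D

open MeasureTheory Filter Topology Set

/-- The sign. -/
def sg (b : Bool) : ℝ := if b then 1 else -1

theorem abs_sg (b : Bool) : |sg b| = 1 := by cases b <;> simp [sg]

theorem sg_not (b : Bool) : sg (!b) = -sg b := by cases b <;> simp [sg]

variable {ι A J : Type} [MeasurableSpace A] {μ : J → Measure A}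

theorem sum_sg {z : ι → ℝ} (hz : Summable fun k => |z k|) (σ : ι → Bool) :
    Summable fun k => sg (σ k) * z k :=
  Summable.of_norm_bounded hz fun k => by rw [Real.norm_eq_abs, abs_mul, abs_sg, one_mul]

theorem flip_big [DecidableEq ι] {z : ι → ℝ} (hz : Summable fun k => |z k|) (σ : ι → Bool) (k : ι)
    {R : ℝ} (hR : R < |z k|) : R < |∑' i, sg (σ i) * z i| ∨
      R < |∑' i, sg (Function.update σ k (!σ k) i) * z i| := by
  have h1 : (∑' i, sg (σ i) * z i) - ∑' i, sg (Function.update σ k (!σ k) i) * z i =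
      2 * (sg (σ k) * z k) := by
    rw [← (sum_sg hz σ).tsum_sub (sum_sg hz _), tsum_eq_single k]
    · rw [Function.update_self, sg_not]
      ring
    · intro i hi
      rw [Function.update_of_ne hi, sub_self]
  have h2 : |(∑' i, sg (σ i) * z i) - ∑' i, sg (Function.update σ k (!σ k) i) * z i| =
      2 * |z k| := by
    rw [h1, abs_mul, abs_mul, abs_sg, one_mul, abs_two]
  have h3 := abs_sub (∑' i, sg (σ i) * z i) (∑' i, sg (Function.update σ k (!σ k) i) * z i)
  by_contra h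
  push Not at h
  linarith [h.1, h.2]

/-- Averaging over the signs in a finite set. -/
theorem avg (ν : Measure A) {Z : A → ι → ℝ} (hs : ∀ ω, Summable fun k => |Z ω k|)
    (hm : ∀ σ : ι → Bool, Measurable fun ω => ∑' k, sg (σ k) * Z ω k) (τ : ι → Bool) (F : Finset ι)
    {R : ℝ} {ε : ENNReal}
    (h : ∀ σ : ι → Bool, (∀ k, k ∉ F → σ k = τ k) → ν {ω | R < |∑' k, sg (σ k) * Z ω k|} ≤ ε) :
    ν {ω | ∃ k ∈ F, R < |Z ω k|} ≤ 2 * ε := by
  classical
  let s : (F → Bool) → ι → Bool := fun η k => if hk : k ∈ F then η ⟨k, hk⟩ else τ k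
  let B : (F → Bool) → Set A := fun η => {ω | R < |∑' k, sg (s η k) * Z ω k|}
  have hB : ∀ η, MeasurableSet (B η) := fun η =>
    measurableSet_lt measurable_const (hm _).abs
  let f : A → ENNReal := fun ω => ∑ η, (B η).indicator 1 ω
  have hf : Measurable f := Finset.measurable_sum _ fun η _ => measurable_one.indicator (hB η)
  set c : ENNReal := ((Fintype.card (F → Bool) : ℕ) : ENNReal) with hc
  have hc0 : c ≠ 0 := by
    rw [hc]
    exact_mod_cast Fintype.card_ne_zero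
  have hct : c ≠ ⊤ := ENNReal.natCast_ne_top _
  have h1 : ∫⁻ ω, 2 * f ω ∂ν ≤ c * (2 * ε) := by
    rw [lintegral_const_mul _ hf, lintegral_finsetSum _ fun η _ => measurable_one.indicator (hB η)]
    have h2 : ∑ η, ∫⁻ ω, (B η).indicator 1 ω ∂ν ≤ ∑ _η : F → Bool, ε := by
      refine Finset.sum_le_sum fun η _ => ?_
      rw [lintegral_indicator_one (hB η)]
      exact h _ fun k hk => dif_neg hk
    rw [Finset.sum_const, Finset.card_univ, nsmul_eq_mul] at h2
    calc _ ≤ 2 * (c * ε) := by gcongr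
      _ = c * (2 * ε) := by ring
  have h2 : {ω | ∃ k ∈ F, R < |Z ω k|} ⊆ {ω | c ≤ 2 * f ω} := by
    rintro ω ⟨k, hk, hR⟩
    let fl : (F → Bool) → F → Bool := fun η => Function.update η ⟨k, hk⟩ (!η ⟨k, hk⟩)
    let G : Finset (F → Bool) := Finset.univ.filter fun η => ω ∈ B η
    have hfl : ∀ η, fl (fl η) = η := by
      intro η
      simp [fl]
    have hsf : ∀ η, s (fl η) = Function.update (s η) k (!s η k) := by
      intro η
      funext i
      by_cases hi : i = k
      · subst hi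
        simp [s, fl, hk]
      · rw [Function.update_of_ne hi]
        by_cases hF : i ∈ F
        · simp only [s, fl, dif_pos hF]
          rw [Function.update_of_ne]
          exact fun h => hi (congrArg Subtype.val h)
        · simp only [s, dif_neg hF]
    have h3 : (Finset.univ : Finset (F → Bool)) ⊆ G ∪ G.image fl := by
      intro η _
      rcases flip_big (hs ω) (s η) k hR with h4 | h4
      · exact Finset.mem_union_left _ (Finset.mem_filter.2 ⟨Finset.mem_univ _, h4⟩)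
      · refine Finset.mem_union_right _ (Finset.mem_image.2 ⟨fl η, ?_, hfl η⟩)
        refine Finset.mem_filter.2 ⟨Finset.mem_univ _, ?_⟩
        show R < |∑' i, sg (s (fl η) i) * Z ω i|
        rw [hsf]
        exact h4
    have h4 : Fintype.card (F → Bool) ≤ 2 * G.card := by
      have h5 := (Finset.card_le_card h3).trans (Finset.card_union_le _ _)
      have h6 : (G.image fl).card ≤ G.card := Finset.card_image_le
      rw [Finset.card_univ] at h5
      omega
    have h5 : f ω = G.card := by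
      simp only [f, G, Set.indicator_apply, Pi.one_apply]
      rw [Finset.sum_boole]
    show c ≤ 2 * f ω
    rw [h5, hc]
    exact_mod_cast h4
  have h3 := mul_meas_ge_le_lintegral (μ := ν) (f := fun ω => 2 * f ω) (hf.const_mul 2) c
  have h4 : c * ν {ω | ∃ k ∈ F, R < |Z ω k|} ≤ c * (2 * ε) :=
    ((mul_le_mul_right (measure_mono h2) c).trans h3).trans h1
  exact (ENNReal.mul_le_mul_iff_right hc0 hct).1 h4

theorem meas_fin [Countable ι] (ν : Measure A) (p : A → ι → Prop) :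
    ν {ω | ∃ k, p ω k} = ⨆ F : Finset ι, ν {ω | ∃ k ∈ F, p ω k} := by
  classical
  have h1 : {ω | ∃ k, p ω k} = ⋃ F : Finset ι, {ω | ∃ k ∈ F, p ω k} := by
    ext ω
    simp only [mem_iUnion, mem_ofPred_eq]
    exact ⟨fun ⟨k, hk⟩ => ⟨{k}, k, Finset.mem_singleton_self k, hk⟩, fun ⟨_, k, _, hk⟩ => ⟨k, hk⟩⟩
  rw [h1]
  refine Directed.measure_iUnion (Monotone.directed_le ?_)
  rintro F G hFG ω ⟨k, hk, h⟩
  exact ⟨k, hFG hk, h⟩

/-- The theorem of Baire on the space of the signs. -/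
theorem signs [Countable ι] {Z : A → ι → ℝ} (hs : ∀ ω, Summable fun k => |Z ω k|)
    (hm : ∀ σ : ι → Bool, Measurable fun ω => ∑' k, sg (σ k) * Z ω k) {ε : ENNReal}
    (ht : ∀ σ : ι → Bool, ∃ R : ℝ, ∀ j, μ j {ω | R < |∑' k, sg (σ k) * Z ω k|} ≤ ε) :
    ∃ (I : Finset ι) (R : ℝ), ∀ j, μ j {ω | ∃ k, k ∉ I ∧ R < |Z ω k|} ≤ 2 * ε := by
  classical
  have hc : ∀ ω, Continuous fun σ : ι → Bool => ∑' k, sg (σ k) * Z ω k := by
    intro ω
    refine continuous_tsum (fun k => ?_) (hs ω) fun k σ => ?_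
    · exact ((continuous_of_discreteTopology (f := sg)).comp (continuous_apply k)).mul
        continuous_const
    · rw [Real.norm_eq_abs, abs_mul, abs_sg, one_mul]
  have hcl : ∀ R : ℕ, IsClosed
      {σ : ι → Bool | ∀ j, μ j {ω | (R : ℝ) < |∑' k, sg (σ k) * Z ω k|} ≤ ε} := by
    intro R
    refine IsSeqClosed.isClosed ?_
    intro x σ hx hlim j
    have hsub : {ω | (R : ℝ) < |∑' k, sg (σ k) * Z ω k|} ⊆
        ⋃ N : ℕ, {ω | ∀ n, N ≤ n → (R : ℝ) < |∑' k, sg (x n k) * Z ω k|} := by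
      intro ω hω
      have h1 := ((hc ω).abs.tendsto σ).comp hlim
      obtain ⟨N, hN⟩ := eventually_atTop.1 (h1.eventually (lt_mem_nhds hω))
      exact mem_iUnion.2 ⟨N, hN⟩
    refine (measure_mono hsub).trans ?_
    have hmo : Monotone fun N : ℕ =>
        {ω | ∀ n, N ≤ n → (R : ℝ) < |∑' k, sg (x n k) * Z ω k|} :=
      fun N M hNM ω hω n hn => hω n (hNM.trans hn)
    rw [hmo.measure_iUnion]
    refine iSup_le fun N => le_trans (measure_mono ?_) (hx N j)
    exact fun ω hω => hω N le_rfl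
  have hU : ⋃ R : ℕ,
      {σ : ι → Bool | ∀ j, μ j {ω | (R : ℝ) < |∑' k, sg (σ k) * Z ω k|} ≤ ε} = univ := by
    refine eq_univ_of_forall fun σ => ?_
    obtain ⟨R, hR⟩ := ht σ
    obtain ⟨N, hN⟩ := exists_nat_ge R
    exact mem_iUnion.2 ⟨N, fun j => (measure_mono fun ω hω => hN.trans_lt hω).trans (hR j)⟩
  obtain ⟨R, τ, hτ⟩ := nonempty_interior_of_iUnion_of_closed hcl hU
  rw [mem_interior_iff_mem_nhds, nhds_pi, Filter.mem_pi'] at hτ
  obtain ⟨I, t, ht1, ht2⟩ := hτ
  refine ⟨I, R, fun j => ?_⟩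
  rw [meas_fin]
  refine iSup_le fun F => ?_
  have h1 := avg (μ j) hs hm τ (F \ I) (R := R) (ε := ε) fun σ hσ => by
    refine ht2 (fun k hk => ?_) j
    rw [hσ k fun h => (Finset.mem_sdiff.1 h).2 hk]
    exact mem_of_mem_nhds (ht1 k)
  refine (measure_mono ?_).trans h1
  rintro ω ⟨k, hk, h2, h3⟩
  exact ⟨k, Finset.mem_sdiff.2 ⟨hk, h2⟩, h3⟩

theorem fin_tight {Z : A → ι → ℝ}
    (h : ∀ k, ∀ ε : ENNReal, 0 < ε → ∃ R : ℝ, ∀ j, μ j {ω | R < |Z ω k|} ≤ ε) (I : Finset ι) :
    ∀ ε : ENNReal, 0 < ε → ∃ R : ℝ, ∀ j, μ j {ω | ∃ k ∈ I, R < |Z ω k|} ≤ ε := by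
  classical
  induction I using Finset.induction_on with
  | empty => exact fun ε _ => ⟨0, fun j => by simp⟩
  | insert k I _ ih =>
    intro ε hε
    obtain ⟨R1, h1⟩ := ih (ε / 2) (ENNReal.half_pos hε.ne')
    obtain ⟨R2, h2⟩ := h k (ε / 2) (ENNReal.half_pos hε.ne')
    refine ⟨max R1 R2, fun j => ?_⟩
    have h3 : {ω | ∃ i ∈ insert k I, max R1 R2 < |Z ω i|} ⊆
        {ω | ∃ i ∈ I, R1 < |Z ω i|} ∪ {ω | R2 < |Z ω k|} := by
      rintro ω ⟨i, hi, h4⟩
      rcases Finset.mem_insert.1 hi with rfl | hi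
      · exact Or.inr ((le_max_right _ _).trans_lt h4)
      · exact Or.inl ⟨i, hi, (le_max_left _ _).trans_lt h4⟩
    refine (measure_mono h3).trans ((measure_union_le _ _).trans ?_)
    rw [← ENNReal.add_halves ε]
    exact add_le_add (h1 j) (h2 j)

/-- A rapidly decreasing family which is large on given finite sets. -/
theorem exists_rapid {w : ι → ℝ} (hw : ∀ k, 1 ≤ w k) (F : ℕ → Finset ι) :
    ∃ ρ : ι → ℝ, Rapid w ρ ∧ ∀ m : ℕ, ∀ k ∈ F m, (((m : ℝ) + 1) * w k ^ m)⁻¹ ≤ ρ k := by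
  classical
  let t : ℕ → ι → ℝ := fun m k => if k ∈ F m then (((m : ℝ) + 1) * w k ^ m)⁻¹ else 0
  have hw0 : ∀ k, 0 < w k := fun k => one_pos.trans_le (hw k)
  have h0 : ∀ m k, 0 ≤ t m k := by
    intro m k
    have := hw0 k
    simp only [t]
    split_ifs
    · positivity
    · exact le_rfl
  have h1 : ∀ (m i : ℕ) k, i ≤ m → t m k * w k ^ i ≤ 1 := by
    intro m i k hi
    have := hw0 k
    simp only [t]
    split_ifs
    · rw [inv_mul_le_iff₀ (by positivity), mul_one]
      have h2 : w k ^ i ≤ w k ^ m := pow_le_pow_right₀ (hw k) hi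
      have h3 : (0 : ℝ) ≤ m * w k ^ m := by positivity
      linarith
    · simp
  have hb : ∀ k, BddAbove (range fun m => t m k) := fun k =>
    ⟨1, by
      rintro _ ⟨m, rfl⟩
      simpa using h1 m 0 k (Nat.zero_le _)⟩
  refine ⟨fun k => ⨆ m, t m k, fun i => ⟨1 + ∑ m ∈ Finset.range i, ∑ k ∈ F m, w k ^ i, fun k => ?_⟩,
    fun m k hk => ?_⟩
  · have hk := hw0 k
    have hS : ∀ m, 0 ≤ ∑ k ∈ F m, w k ^ i := fun m =>
      Finset.sum_nonneg fun k _ => (pow_pos (hw0 k) i).le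
    have hS' : 0 ≤ ∑ m ∈ Finset.range i, ∑ k ∈ F m, w k ^ i := Finset.sum_nonneg fun m _ => hS m
    rw [abs_of_nonneg ((h0 0 k).trans (le_ciSup (hb k) 0)), ← le_div_iff₀ (by positivity)]
    refine ciSup_le fun m => ?_
    rw [le_div_iff₀ (by positivity)]
    rcases le_or_gt i m with hi | hi
    · linarith [h1 m i k hi]
    · by_cases hF : k ∈ F m
      · have h2 : t m k ≤ 1 := by simpa using h1 m 0 k (Nat.zero_le _)
        have h3 : w k ^ i ≤ ∑ k ∈ F m, w k ^ i :=
          Finset.single_le_sum (f := fun k => w k ^ i) (fun k _ => (pow_pos (hw0 k) i).le) hF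
        have h4 : ∑ k ∈ F m, w k ^ i ≤ ∑ m ∈ Finset.range i, ∑ k ∈ F m, w k ^ i :=
          Finset.single_le_sum (f := fun m => ∑ k ∈ F m, w k ^ i) (fun m _ => hS m)
            (Finset.mem_range.2 hi)
        have h5 : t m k * w k ^ i ≤ 1 * w k ^ i := by gcongr
        linarith
      · simp only [t, if_neg hF]
        linarith
  · have := le_ciSup (hb k) m
    simp only [t, if_pos hk] at this
    exact this

theorem seq : SEQ := by
  classical
  intro ι _ w hw A J _ μ Y hs hm ht ε hε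
  by_contra hn
  push Not at hn
  have h1 : ∀ m : ℕ, ∃ (j : J) (F : Finset ι),
      ε < μ j {ω | ∃ k ∈ F, ((m : ℝ) + 1) ^ 2 * w k ^ m < |Y ω k|} := by
    intro m
    obtain ⟨j, hj⟩ := hn m (((m : ℝ) + 1) ^ 2) (by positivity)
    rw [meas_fin] at hj
    obtain ⟨F, hF⟩ := lt_iSup_iff.1 hj
    exact ⟨j, F, hF⟩
  choose j F hF using h1
  obtain ⟨ρ, hρ, hρF⟩ := exists_rapid hw F
  have hσ : ∀ σ : ι → Bool, Rapid w fun k => sg (σ k) * ρ k := by
    intro σ m
    obtain ⟨C, hC⟩ := hρ m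
    exact ⟨C, fun k => by rw [abs_mul, abs_sg, one_mul]; exact hC k⟩
  have hε2 : 0 < ε / 2 := ENNReal.half_pos hε.ne'
  obtain ⟨I, R1, h1⟩ := signs (μ := μ) (Z := fun ω k => ρ k * Y ω k) (ε := ε / 2 / 2)
    (fun ω => (hs ρ hρ ω).abs) (fun σ => by simpa only [mul_assoc] using hm _ (hσ σ))
    (fun σ => by simpa only [mul_assoc] using ht _ (hσ σ) _ (ENNReal.half_pos hε2.ne'))
  obtain ⟨R2, h2⟩ := fin_tight (μ := μ) (Z := fun ω k => ρ k * Y ω k) (fun k η hη => by
    have h3 : Rapid w fun i => if i = k then ρ k else 0 := by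
      intro m
      refine ⟨|ρ k| * w k ^ m, fun i => ?_⟩
      have := hw k
      simp only
      split_ifs with h
      · rw [h]
      · rw [abs_zero, zero_mul]
        positivity
    obtain ⟨R, hR⟩ := ht _ h3 η hη
    refine ⟨R, fun j => ?_⟩
    have h4 : ∀ ω, ∑' i, (if i = k then ρ k else 0) * Y ω i = ρ k * Y ω k := by
      intro ω
      rw [tsum_eq_single k fun i hi => by rw [if_neg hi, zero_mul], if_pos rfl]
    simpa only [h4] using hR j) I _ hε2
  obtain ⟨m, hm'⟩ := exists_nat_ge (max R1 R2)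
  refine absurd (hF m) (not_lt.2 ?_)
  have h3 : {ω | ∃ k ∈ F m, ((m : ℝ) + 1) ^ 2 * w k ^ m < |Y ω k|} ⊆
      {ω | ∃ k, k ∉ I ∧ R1 < |ρ k * Y ω k|} ∪ {ω | ∃ k ∈ I, R2 < |ρ k * Y ω k|} := by
    rintro ω ⟨k, hk, h4⟩
    have hk0 : 0 < w k := one_pos.trans_le (hw k)
    have h5 := hρF m k hk
    have h6 : 0 < (((m : ℝ) + 1) * w k ^ m)⁻¹ := by positivity
    have h7 : (m : ℝ) + 1 ≤ |ρ k * Y ω k| := by
      rw [abs_mul, abs_of_nonneg (h6.le.trans h5)]
      calc (m : ℝ) + 1 = (((m : ℝ) + 1) * w k ^ m)⁻¹ * (((m : ℝ) + 1) ^ 2 * w k ^ m) := by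
            field_simp
        _ ≤ ρ k * |Y ω k| := mul_le_mul h5 h4.le (by positivity) (h6.le.trans h5)
    by_cases hI : k ∈ I
    · exact Or.inr ⟨k, hI, by linarith [le_max_right R1 R2]⟩
    · exact Or.inl ⟨k, hI, by linarith [le_max_left R1 R2]⟩
  refine (measure_mono h3).trans ((measure_union_le _ _).trans ?_)
  have h4 := h1 (j m)
  rw [two_mul, ENNReal.add_halves] at h4
  rw [← ENNReal.add_halves ε]
  exact add_le_add h4 (h2 (j m))

end Vale.Agent.P153D
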