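import Mathlib

/-!
Convergence in law in the space of distributions: the blocks.
-/

set_option autoImplicit false

namespace Vale.Agent.P153D

open MeasureTheory Filter Topology Set TopologicalSpace

/-- Test functions. -/
abbrev Te (Ω : Opens ℂ) : Type := TestFunction Ω ℝ ⊤

/-- Distributions. -/
abbrev Di (Ω : Opens ℂ) : Type := Distribution Ω ℝ ⊤

/-- The Borel sets of the space of distributions. -/
noncomputable instance ms (Ω : Opens ℂ) : MeasurableSpace (Di Ω) := borel _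

instance bs (Ω : Opens ℂ) : BorelSpace (Di Ω) := ⟨rfl⟩

theorem cont_ev {Ω : Opens ℂ} (φ : Te Ω) : Continuous fun T : Di Ω => T φ :=
  continuous_eval_const φ

theorem meas_ev {Ω : Opens ℂ} (φ : Te Ω) : Measurable fun T : Di Ω => T φ :=
  (cont_ev φ).measurable

/-- Rapidly decreasing families. -/
def Rapid {ι : Type} (w a : ι → ℝ) : Prop := ∀ m : ℕ, ∃ C : ℝ, ∀ k, |a k| * w k ^ m ≤ C

/-- All derivatives of order at most `m` are bounded by `B`. -/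
def Bd (m : ℕ) (φ : ℂ → ℝ) (B : ℝ) : Prop := ∀ i ≤ m, ∀ x, ‖iteratedFDeriv ℝ i φ x‖ ≤ B

/-- The phase. -/
noncomputable def th (L : ℝ) (k : Fin 2 → ℤ) (x : ℂ) : ℝ :=
  2 * Real.pi * (k 0 * x.re + k 1 * x.im) / L

/-- The weight. -/
noncomputable def wt (k : Fin 2 → ℤ) : ℝ := 1 + |(k 0 : ℝ)| + |(k 1 : ℝ)|

/-- Random families which are tight when paired with each rapidly decreasing family are uniformly
of polynomial growth. -/
def SEQ : Prop := ∀ (ι : Type) [Countable ι] (w : ι → ℝ), (∀ k, 1 ≤ w k) →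
  ∀ (A J : Type) [MeasurableSpace A] (μ : J → Measure A) (Y : A → ι → ℝ),
    (∀ a, Rapid w a → ∀ ω, Summable fun k => a k * Y ω k) →
    (∀ a, Rapid w a → Measurable fun ω => ∑' k, a k * Y ω k) →
    (∀ a, Rapid w a → ∀ ε : ENNReal, 0 < ε →
      ∃ R : ℝ, ∀ j, μ j {ω | R < |∑' k, a k * Y ω k|} ≤ ε) →
    ∀ ε : ENNReal, 0 < ε → ∃ (m : ℕ) (R : ℝ), 0 ≤ R ∧
      ∀ j, μ j {ω | ∃ k, R * w k ^ m < |Y ω k|} ≤ ε

/-- Fourier series in a disc. -/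
def FOU : Prop := ∀ r : ℝ, 0 < r → ∀ m : ℕ, ∃ C : ℝ, ∀ φ : ℂ → ℝ,
  ContDiff ℝ ((⊤ : ℕ∞) : WithTop ℕ∞) φ → tsupport φ ⊆ Metric.ball 0 r →
    ∃ c : (Fin 2 → ℤ) → ℂ,
      (∀ x ∈ Metric.ball (0 : ℂ) r,
        HasSum (fun k => c k * Complex.exp (th (4 * r) k x * Complex.I)) (φ x)) ∧
      ∀ B, Bd m φ B → ∀ k, ‖c k‖ * wt k ^ m ≤ C * B

/-- Synthesis. -/
def SYN : Prop := ∀ (Ω : Opens ℂ) (K : Set ℂ), IsCompact K → K ⊆ Ω →
  ∀ (ι : Type) (w : ι → ℝ) (ψ : ι → Te Ω), (∀ k, 1 ≤ w k) → (Summable fun k => (w k ^ 3)⁻¹) →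
    (∀ k, tsupport (ψ k) ⊆ K) →
    (∀ i : ℕ, ∃ C : ℝ, ∀ k x, ‖iteratedFDeriv ℝ i (ψ k) x‖ ≤ C * w k ^ i) →
    ∀ a, Rapid w a → ∃ φ : Te Ω, HasSum (fun k => a k • ψ k) φ

/-- Local expansions of test functions. -/
def NUC : Prop := ∀ (Ω : Opens ℂ) (K : Set ℂ), IsCompact K → K ⊆ Ω →
  ∃ (ι : Type) (_ : Countable ι) (w : ι → ℝ) (ψ : ι → Te Ω), (∀ k, 1 ≤ w k) ∧
    (Summable fun k => (w k ^ 3)⁻¹) ∧
    (∀ a, Rapid w a → ∃ φ : Te Ω, HasSum (fun k => a k • ψ k) φ) ∧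
    ∀ m : ℕ, ∃ C : ℝ, ∀ φ : Te Ω, tsupport φ ⊆ K → ∃ c : ι → ℝ,
      HasSum (fun k => c k • ψ k) φ ∧ ∀ B, Bd m φ B → ∀ k, |c k| * w k ^ m ≤ C * B

/-- Equicontinuous sets of distributions are relatively compact. -/
def ALA : Prop := ∀ (Ω : Opens ℂ) (S : Set (Di Ω)),
  (∀ K : Set ℂ, IsCompact K → K ⊆ Ω → ∃ (m : ℕ) (C : ℝ), ∀ T ∈ S, ∀ φ : Te Ω, tsupport φ ⊆ K →
    ∀ B, Bd m φ B → |T φ| ≤ C * B) → ∃ Q : Set (Di Ω), IsCompact Q ∧ S ⊆ Q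

/-- Tightness from the tightness of the one-dimensional laws. -/
def TIG : Prop := ∀ (Ω : Opens ℂ) (J : Type) (μ : J → Measure (Di Ω)),
  (∀ φ : Te Ω, ∀ ε : ENNReal, 0 < ε → ∃ R : ℝ, ∀ j, μ j {T | R < |T φ|} ≤ ε) →
    IsTightMeasureSet (range μ)

/-- Countably many test functions separate the distributions. -/
def SEP : Prop := ∀ Ω : Opens ℂ, ∃ φ : ℕ → Te Ω, ∀ T T' : Di Ω, (∀ n, T (φ n) = T' (φ n)) → T = T'

/-- Borel probability measures are determined by their one-dimensional laws. -/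
def UNI : Prop := ∀ (Ω : Opens ℂ) (μ ν : Measure (Di Ω)), IsProbabilityMeasure μ →
  IsProbabilityMeasure ν →
  (∀ φ : Te Ω, μ.map (fun T => T φ) = ν.map (fun T => T φ)) → μ = ν

/-- The continuity theorem. -/
def FER : Prop := ∀ (Ω : Opens ℂ) (μ : ℕ → ProbabilityMeasure (Di Ω))
  (ν : Te Ω → ProbabilityMeasure ℝ),
  (∀ φ : Te Ω, Tendsto (fun n => (μ n).map (meas_ev φ).aemeasurable) atTop (𝓝 (ν φ))) →
    ∃ G : ProbabilityMeasure (Di Ω), (∀ φ : Te Ω, G.map (meas_ev φ).aemeasurable = ν φ) ∧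
      Tendsto μ atTop (𝓝 G)

end Vale.Agent.P153D
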