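import Vale.Agent.P153D.Stmt

/-!
The Green function and the variance.
-/

set_option autoImplicit false

namespace Vale.Agent.P153D

open MeasureTheory Filter Topology Set Vale.Agent.P153.H212

/-- The Green function of the half-plane. -/
noncomputable def gH (a b : ℂ) : ℝ :=
  (2 * Real.pi)⁻¹ * Real.log (‖a - (starRingEnd ℂ) b‖ / ‖a - b‖)

/-- The Green function of the domain, from a conformal map. -/
noncomputable def gD (ψ : ℂ → ℂ) (z w : ℂ) : ℝ :=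
  gH (Function.invFunOn ψ {a | 0 < a.im} z) (Function.invFunOn ψ {a | 0 < a.im} w)

/-- Existence and uniqueness of the Green function. -/
def GR1 : Prop := ∀ (Φ : ℂ ≃ₜ ℂ) (ψ : ℂ → ℂ), IsConformal Φ ψ → IsGreen (dom Φ) (gD ψ) ∧
  ∀ G, IsGreen (dom Φ) G → ∀ z ∈ dom Φ, ∀ w ∈ dom Φ, z ≠ w → G z w = gD ψ z w

/-- The Green function gives the variance. -/
def GR2 : Prop := ∀ (Φ : ℂ ≃ₜ ℂ) (ψ : ℂ → ℂ), IsConformal Φ ψ → ∀ f g : ℂ → ℝ,
  TestOn (dom Φ) f → TestOn (dom Φ) g →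
    (∫ z in dom Φ, ∫ w in dom Φ, f z * gD ψ z w * f w) = V (dom Φ) f ∧
    (∫ z in dom Φ, ∫ w in dom Φ, f z * gD ψ z w * g w) =
      (V (dom Φ) (fun z => f z + g z) - V (dom Φ) (fun z => f z - g z)) / 4

/-- The Green function and the variance `V`. -/
def GRN : Prop :=
  ∀ Φ : ℂ ≃ₜ ℂ, (∃ G, IsGreen (dom Φ) G) ∧ ∀ G, IsGreen (dom Φ) G → ∀ f g : ℂ → ℝ,
    TestOn (dom Φ) f → TestOn (dom Φ) g →
      (∫ z in dom Φ, ∫ w in dom Φ, f z * G z w * f w) = V (dom Φ) f ∧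
      (∫ z in dom Φ, ∫ w in dom Φ, f z * G z w * g w) =
        (V (dom Φ) (fun z => f z + g z) - V (dom Φ) (fun z => f z - g z)) / 4

theorem grn_of (h0 : ∀ Φ : ℂ ≃ₜ ℂ, ∃ ψ, IsConformal Φ ψ) (h1 : GR1) (h2 : GR2) : GRN := by
  intro Φ
  obtain ⟨ψ, hψ⟩ := h0 Φ
  refine ⟨⟨_, (h1 Φ ψ hψ).1⟩, fun G hG f g hf hg => ?_⟩
  have hm : MeasurableSet (dom Φ) := (Φ.isOpenMap _ Metric.isOpen_ball).measurableSet
  have key : ∀ a b : ℂ → ℝ, (∫ z in dom Φ, ∫ w in dom Φ, a z * G z w * b w) =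
      ∫ z in dom Φ, ∫ w in dom Φ, a z * gD ψ z w * b w := by
    intro a b
    refine setIntegral_congr_fun hm fun z hz => ?_
    refine setIntegral_congr_ae hm ?_
    have h3 : ∀ᵐ w : ℂ, w ≠ z := Measure.ae_ne volume z
    filter_upwards [h3] with w hw hw'
    rw [(h1 Φ ψ hψ).2 G hG z hz w hw' hw.symm]
  rw [key, key]
  exact h2 Φ ψ hψ f g hf hg

end Vale.Agent.P153D
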