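import Vale.Agent.P153D.App
import Vale.Agent.P153D.Gr1
import Vale.Agent.P153DH.Kit
import Vale.Agent.P153DK.Fin
import Vale.Agent.P153DM.Fin
import Vale.Agent.P153.H212.Free

/-!
All the limit theorems together.
-/

set_option autoImplicit false

namespace Vale.Agent.P153D

open Vale.Agent.P153.H212

theorem conformal (Φ : ℂ ≃ₜ ℂ) : ∃ ψ, IsConformal Φ ψ := by
  obtain ⟨_, _, _, _, -, -, h⟩ := curve_thm
  exact (h Φ).1

theorem dist_thm : DistributionTheorem := dist_of (grn_of conformal gr1 P153DG.gr2)

theorem sob_thm : P153DH.SobolevTheorem :=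
  _root_.P153DK.sob_of P153DH.kit_thm _root_.P153DM.momh_thm existence field

theorem everything : Existence ∧ DistributionTheorem ∧ P153DH.SobolevTheorem ∧ FieldTheorem ∧
    CurveTheorem ∧ PlaneTheorem :=
  ⟨existence, dist_thm, sob_thm, field, curve_thm, plane⟩

end Vale.Agent.P153D
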