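import Vale.Agent.P153D.Law
import Vale.Agent.P153D.Grn
import Vale.Agent.P153D.Seq
import Vale.Agent.P153D.Fou
import Vale.Agent.P153DC.Ala
import Vale.Agent.P153DS.Syn
import Vale.Agent.P153DN.Nuc
import Vale.Agent.P153DT.Tig
import Vale.Agent.P153DU.Uni
import Vale.Agent.P153DM.Momh

/-!
Convergence in law of the height field in the space of distributions.
-/

set_option autoImplicit false

namespace Vale.Agent.P153D

open MeasureTheory ProbabilityTheory Filter Topology Set TopologicalSpace Vale.Agent.P153.H212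
open Vale.Agent.P153

theorem nuc : NUC := Vale.Agent.P153DN.nuc_of fou2 Vale.Agent.P153DS.syn

theorem tig : TIG := Vale.Agent.P153DT.tig_of seq nuc P153DC.ala

theorem uni : UNI := P153DU.uni_of tig (Vale.Agent.P153DN.sep_of nuc)

theorem fer : FER := Vale.Agent.P153DT.fer_of tig uni

theorem fin_pt (R : ℝ) : {v : ℤ × ℤ | ‖pt v‖ ≤ R}.Finite := by
  obtain ⟨N, hN⟩ := exists_nat_ge (2 * R)
  refine ((finite_Icc (-(N : ℤ)) N).prod (finite_Icc (-(N : ℤ)) N)).subset fun v hv => ?_
  have h1 := (Complex.abs_re_le_norm (pt v)).trans hv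
  have h2 := (Complex.abs_im_le_norm (pt v)).trans hv
  have e1 : (pt v).re = v.1 + v.2 / 2 := by
    simp [pt]
    ring
  have e2 : (pt v).im = v.2 * (√3 / 2) := by simp [pt]
  have h3 : (1 : ℝ) ≤ √3 := Real.one_le_sqrt.2 (by norm_num)
  rw [e2, abs_mul, abs_of_pos (show (0 : ℝ) < √3 / 2 by positivity)] at h2
  have h4 : |(v.2 : ℝ)| ≤ 2 * R := by nlinarith [abs_nonneg (v.2 : ℝ)]
  rw [e1] at h1
  have h5 := abs_le.1 h1
  have h6 := abs_le.1 h4
  have h7 : ∀ a : ℤ, -(2 * R) ≤ a → (a : ℝ) ≤ 2 * R → a ∈ Icc (-(N : ℤ)) N := by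
    intro a b c
    constructor
    · have : ((-(N : ℤ) : ℤ) : ℝ) ≤ a := by
        push_cast
        linarith
      exact_mod_cast this
    · have : (a : ℝ) ≤ ((N : ℤ) : ℝ) := by
        push_cast
        linarith
      exact_mod_cast this
  exact ⟨h7 _ (by linarith) (by linarith), h7 _ h6.1 h6.2⟩

theorem ext_cont (h : ℤ × ℤ → ℤ) : Continuous (ext h) := by
  obtain ⟨R, hR⟩ := P153DM.hat_cs.isCompact.isBounded.subset_closedBall 0
  refine continuous_finsum (fun v => continuous_const.mul
    (P153DM.hat_cont.comp (continuous_id.sub continuous_const))) fun x => ?_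
  refine ⟨Metric.ball x 1, Metric.ball_mem_nhds x one_pos, (fin_pt (‖x‖ + 1 + R)).subset ?_⟩
  rintro v ⟨z, hz, hx⟩
  have h1 : z - pt v ∈ tsupport hat := subset_tsupport _ (right_ne_zero_of_mul hz)
  have h2 := mem_closedBall_zero_iff.1 (hR h1)
  have h3 : ‖z - x‖ < 1 := mem_ball_iff_norm.1 hx
  have h4 : pt v = x + (z - x) - (z - pt v) := by ring
  have h5 := norm_sub_le (x + (z - x)) (z - pt v)
  have h6 := norm_add_le x (z - x)
  show ‖pt v‖ ≤ _
  rw [h4]
  linarith

theorem exists_X (Ω : Opens ℂ) (S : Finset (Finset (ℤ × ℤ))) (δ : ℝ) (h : ℤ × ℤ → ℤ) :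
    ∃ T : Di Ω, ∀ f, T f = fld S δ f h := by
  have hm := (P153DM.region_cpt δ S).measurableSet
  have hc : Continuous fun z : ℂ => ext h (z / δ) := (ext_cont h).comp (continuous_id.div_const _)
  obtain ⟨T, hT⟩ := distr_of (Ω := Ω) (g := (region δ S).indicator fun z => ext h (z / δ))
    ((hc.locallyIntegrable.indicator hm).locallyIntegrableOn _)
  refine ⟨T, fun f => ?_⟩
  rw [hT, fld, ← integral_indicator hm]
  refine integral_congr_ae (ae_of_all _ fun z => ?_)
  simp only [indicator]
  split_ifs <;> simp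

theorem dist_of (hG : GRN) : DistributionTheorem := by
  intro Φ inst hB
  obtain rfl : inst = ms (opn Φ) := hB.measurable_eq
  refine ⟨(hG Φ).1, fun G hG' => ?_⟩
  have hV : ∀ f : Te (opn Φ), 0 ≤ V (dom Φ) f := by
    intro f
    have h := le_V Φ (φ := f) (ψ := (0 : Te (opn Φ))) (test_on f) (test_on 0)
    have e : ((0 : Te (opn Φ)) : ℂ → ℝ) = fun _ => 0 := rfl
    simpa [e] using h
  have hiff := isField_iff (Ω := opn Φ) (G := G) (v := fun f => V (dom Φ) f) hV
    (fun f => ((hG Φ).2 G hG' f f (test_on f) (test_on f)).1)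
    (fun f g => ((hG Φ).2 G hG' f g (test_on f) (test_on g)).2)
  obtain ⟨u, hu, hun, hF⟩ := field Φ
  obtain ⟨u', hu', -, hF'⟩ := field_arcs R2.Final.Thm.full_lim.1 Φ
  have hc : (0 : ℝ) < 8 / Real.pi := by positivity
  have hP : ∃ P : Measure (Di (opn Φ)), IsProbabilityMeasure P ∧
      ∀ f : Te (opn Φ), P.map (fun T => T f) = gaussianReal 0 (V (dom Φ) f).toNNReal := by
    obtain ⟨N, k, p, S, hA⟩ := existence Φ (fun n => 1 / ((n : ℝ) + 1)) (fun n => by positivity)
      tendsto_one_div_add_atTop_nhds_zero_nat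
    choose X hX using fun (n : ℕ) h => exists_X (opn Φ) (S n) (1 / ((n : ℝ) + 1)) h
    have h1 : ∀ f : Te (opn Φ), ToGauss atTop (fun n => law (p n) (S n) free)
        (fun n g => X n g f) 0 (8 / Real.pi * V (dom Φ) f) := by
      intro f
      simp only [hX]
      exact (hF _ N k p S hA f (test_on f)).2.2.2
    obtain ⟨Q, q1, q2, -⟩ := exists_lim fer (fun n => unif_aem ((h1 0).1 n) (X n)) h1
    have h2 : Continuous fun T : Di (opn Φ) => 0 + √(8 / Real.pi)⁻¹ • T := by fun_prop
    refine ⟨Q.map fun T => 0 + √(8 / Real.pi)⁻¹ • T,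
      Measure.isProbabilityMeasure_map h2.measurable.aemeasurable, fun f => ?_⟩
    rw [map_aff (fun f => mul_nonneg hc.le (hV f)) q2 0 (inv_pos.2 hc).le f,
      inv_mul_cancel_left₀ hc.ne']
    rfl
  obtain ⟨P, p1, p2⟩ := hP
  refine ⟨P, (hiff P).2 ⟨p1, p2⟩, fun P' hP' => ?_, fun f hf => ?_, ?_⟩
  · obtain ⟨q1, q2⟩ := (hiff P').1 hP'
    exact uni _ _ _ q1 p1 fun f => by rw [q2, p2]
  · rw [(sq_gauss (p2 f)).2, Real.coe_toNNReal _ (hV f)]
    exact V_pos Φ (test_on f) fun h => hf (DFunLike.coe_injective h)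
  have hloc : LocallyIntegrableOn u (opn Φ) :=
    hu.1.continuousOn.locallyIntegrableOn (opn Φ).isOpen.measurableSet
  obtain ⟨U, hU⟩ := distr_of hloc
  refine ⟨u, U, hu, hU, fun δ N k p S hA => ?_⟩
  choose X hX using fun (n : ℕ) h => exists_X (opn Φ) (S n) (δ n) h
  have hp : ∀ n, IsProbabilityMeasure (law (p n) (S n) (arcs (k n))) :=
    (hF δ N k p S hA _ (test_on (0 : Te (opn Φ)))).2.2.1.1
  have hp' : ∀ n, IsProbabilityMeasure (law (p n) (S n) free) :=
    (hF δ N k p S hA _ (test_on (0 : Te (opn Φ)))).2.2.2.1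
  choose M hM using fun n => unif_mean (hp n) (X n)
  simp only [hX] at hM
  refine ⟨X, M, hX, hM, tendsto_of fer uni fun f => ?_, ?_, ?_, ?_⟩
  · simp only [hM, hU]
    exact (hF δ N k p S hA f (test_on f)).2.1
  · have h := inLaw_of fer uni (μ := fun n => law (p n) (S n) (arcs (k n)))
      (X := fun n h => X n h - M n) (fun n => unif_aem (hp n) _) p1 hV p2 0 hc.le fun f => by
        have e : (fun n g => (X n g - M n) f) = fun n g => fld (S n) (δ n) f g -
            ∫ g, fld (S n) (δ n) f g ∂law (p n) (S n) (arcs (k n)) := by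
          funext n g
          show X n g f - M n f = _
          rw [hX, hM]
          rfl
        rw [e]
        exact (hF δ N k p S hA f (test_on f)).2.2.1
    simpa only [zero_add] using h
  · refine inLaw_of fer uni (fun n => unif_aem (hp n) _) p1 hV p2 U hc.le fun f => ?_
    have e : U f = ∫ z, u' z * f z := by
      rw [hU]
      refine integral_congr_ae (ae_of_all _ fun z => ?_)
      by_cases hz : z ∈ dom Φ
      · simp only [hun u' hu' hz]
      · have : f z = 0 := image_eq_zero_of_notMem_tsupport fun h => hz (f.tsupport_subset h)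
        simp only [this, mul_zero]
    simp only [hX, e]
    exact (hF' δ N k p S hA f (test_on f)).2
  · have h := inLaw_of fer uni (μ := fun n => law (p n) (S n) free) (X := X)
      (fun n => unif_aem (hp' n) _) p1 hV p2 0 hc.le fun f => by
        simp only [hX]
        exact (hF δ N k p S hA f (test_on f)).2.2.2
    simpa only [zero_add] using h

end Vale.Agent.P153D
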