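import Vale.Agent.P153.H212.Def

/-!
Convergence in law of the height field in the space of distributions: the definitions.
-/

set_option autoImplicit false

namespace Vale.Agent.P153D

open MeasureTheory ProbabilityTheory Filter Topology Set TopologicalSpace Vale.Agent.P153.H212

/-- The Jordan domain `D` as an open set. -/
def opn (Φ : ℂ ≃ₜ ℂ) : Opens ℂ := ⟨dom Φ, Φ.isOpenMap _ Metric.isOpen_ball⟩

/-- `G` is the Green function of `-Δ` in `D` with zero boundary values: for every pole `w` in `D`,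
`G(z, w) = (2π)⁻¹ log (1 / |z - w|) + H(z)` with `H` harmonic in `D`, and `G(z, w) → 0` as `z`
tends to a boundary point. -/
def IsGreen (D : Set ℂ) (G : ℂ → ℂ → ℝ) : Prop :=
  ∀ w ∈ D, (∃ H : ℂ → ℝ, InnerProductSpace.HarmonicOnNhd H D ∧
      ∀ z ∈ D, z ≠ w → G z w = (2 * Real.pi)⁻¹ * Real.log (1 / ‖z - w‖) + H z) ∧
    ∀ x ∈ frontier D, Tendsto (fun z => G z w) (𝓝[D] x) (𝓝 0)

/-- `P` is the law of a centred Gaussian random distribution on `D` with the covariance kernel `G`: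
`E[Φ(f) Φ(g)] = ∬ f(z) G(z, w) g(w) dz dw`. -/
def IsField {D : Opens ℂ} [MeasurableSpace (Distribution D ℝ ⊤)] (G : ℂ → ℂ → ℝ)
    (P : Measure (Distribution D ℝ ⊤)) : Prop :=
  IsProbabilityMeasure P ∧
    (∀ f : TestFunction D ℝ ⊤, ∃ v, P.map (fun T => T f) = gaussianReal 0 v) ∧
    ∀ f g : TestFunction D ℝ ⊤,
      ∫ T, T f * T g ∂P = ∫ z in (D : Set ℂ), ∫ w in (D : Set ℂ), f z * G z w * g w

/-- Convergence in law in `𝓓'(D)` of `X n` (under `μ n`) to `Y` (under `P`). -/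
def InLaw {D : Opens ℂ} [MeasurableSpace (Distribution D ℝ ⊤)] (μ : ℕ → Measure (ℤ × ℤ → ℤ))
    (X : ℕ → (ℤ × ℤ → ℤ) → Distribution D ℝ ⊤) (P : Measure (Distribution D ℝ ⊤))
    (Y : Distribution D ℝ ⊤ → Distribution D ℝ ⊤) : Prop :=
  (∀ n, IsProbabilityMeasure (μ n) ∧ AEMeasurable (X n) (μ n)) ∧
  ∀ F : Distribution D ℝ ⊤ → ℝ, Continuous F → (∃ M, ∀ T, |F T| ≤ M) →
    Tendsto (fun n => ∫ h, F (X n h) ∂μ n) atTop (𝓝 (∫ T, F (Y T) ∂P))

/-- For every marked Jordan domain D with the marked points a, b, with the Borel `σ`-algebra on the space `𝓓'(D)` of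
the distributions: the Green function `G` exists; there is exactly one law `P` of a centred
Gaussian random distribution `Φ_D` with the covariance kernel `G`, and it is not degenerate; the
harmonic function `u`, the fields `h_δ` and their means are distributions `U`, `X n h`, `M n`; the
means converge to `u` in `𝓓'(D)`; and in law in `𝓓'(D)`, `h_δ - E h_δ → √(8/π) Φ_D` and
`h_δ → u + √(8/π) Φ_D` for the boundary values `±1` on the two arcs, and `h_δ → √(8/π) Φ_D` for the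
free boundary values `±1`. -/
def DistributionTheorem : Prop :=
  ∀ (Φ : ℂ ≃ₜ ℂ) [MeasurableSpace (Distribution (opn Φ) ℝ ⊤)]
    [BorelSpace (Distribution (opn Φ) ℝ ⊤)],
    (∃ G, IsGreen (dom Φ) G) ∧ ∀ G, IsGreen (dom Φ) G →
    ∃ P : Measure (Distribution (opn Φ) ℝ ⊤), IsField G P ∧ (∀ P', IsField G P' → P' = P) ∧
    (∀ f : TestFunction (opn Φ) ℝ ⊤, f ≠ 0 → 0 < ∫ T, T f * T f ∂P) ∧
    ∃ (u : ℂ → ℝ) (U : Distribution (opn Φ) ℝ ⊤), IsHarm Φ u ∧ (∀ f, U f = ∫ z, u z * f z) ∧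
    ∀ (δ : ℕ → ℝ) (N k : ℕ → ℕ) (p : ∀ n, ZMod (N n) → ℤ × ℤ)
      (S : ℕ → Finset (Finset (ℤ × ℤ))), Approx Φ δ N k p S →
      ∃ (X : ℕ → (ℤ × ℤ → ℤ) → Distribution (opn Φ) ℝ ⊤) (M : ℕ → Distribution (opn Φ) ℝ ⊤),
        (∀ n h f, X n h f = fld (S n) (δ n) f h) ∧
        (∀ n f, M n f = ∫ h, fld (S n) (δ n) f h ∂law (p n) (S n) (arcs (k n))) ∧
        Tendsto M atTop (𝓝 U) ∧
        InLaw (fun n => law (p n) (S n) (arcs (k n))) (fun n h => X n h - M n) P
          (fun T => √(8 / Real.pi) • T) ∧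
        InLaw (fun n => law (p n) (S n) (arcs (k n))) X P (fun T => U + √(8 / Real.pi) • T) ∧
        InLaw (fun n => law (p n) (S n) free) X P (fun T => √(8 / Real.pi) • T)

end Vale.Agent.P153D
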