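import Vale.Agent.P153D.Props
import Vale.Agent.P153D.Stmt

/-!
Convergence in law in the space of distributions from the one-dimensional limits.
-/

set_option autoImplicit false

namespace Vale.Agent.P153D

open MeasureTheory ProbabilityTheory Filter Topology Set TopologicalSpace Vale.Agent.P153.H212

variable {Ω : Opens ℂ}

theorem test_on (f : Te Ω) : TestOn Ω f := ⟨f.contDiff, f.hasCompactSupport, f.tsupport_subset⟩

theorem distr_of {g : ℂ → ℝ} (hg : LocallyIntegrableOn g Ω) :
    ∃ T : Di Ω, ∀ f, T f = ∫ z, g z * f z := by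
  refine ⟨(TestFunction.integralAgainstBilinCLM (ContinuousLinearMap.mul ℝ ℝ) volume g :
    Te Ω →L[ℝ] ℝ), fun f => ?_⟩
  have h := TestFunction.integralAgainstBilinCLM_eq_integral (n := ⊤)
    (B := ContinuousLinearMap.mul ℝ ℝ) hg (f := f)
  refine h.trans ?_
  simp only [ContinuousLinearMap.mul_apply', mul_comm]

theorem unif_fin {s : Set (ℤ × ℤ → ℤ)} (h : IsProbabilityMeasure (uniformOn s)) : s.Finite :=
  finite_of_uniformOn_ne_zero (t := univ) (by rw [measure_univ]; exact one_ne_zero)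

theorem unif_res {s : Set (ℤ × ℤ → ℤ)} (h : IsProbabilityMeasure (uniformOn s)) :
    (uniformOn s).restrict s = uniformOn s :=
  Measure.restrict_eq_self_of_ae_mem (ae_cond_mem (unif_fin h).measurableSet)

theorem unif_aem {s : Set (ℤ × ℤ → ℤ)} (h : IsProbabilityMeasure (uniformOn s)) {Y : Type}
    [MeasurableSpace Y] (X : (ℤ × ℤ → ℤ) → Y) : AEMeasurable X (uniformOn s) := by
  rw [← unif_res h]
  have := (unif_fin h).to_subtype
  exact aemeasurable_restrict_of_measurable_subtype (unif_fin h).measurableSet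
    (Measurable.of_discrete)

theorem unif_mean {s : Set (ℤ × ℤ → ℤ)} (h : IsProbabilityMeasure (uniformOn s))
    (X : (ℤ × ℤ → ℤ) → Di Ω) : ∃ M : Di Ω, ∀ f, M f = ∫ g, X g f ∂uniformOn s := by
  refine ⟨∑ g ∈ (unif_fin h).toFinset, (uniformOn s).real {g} • X g, fun f => ?_⟩
  have h1 := setIntegral_finset (μ := uniformOn s) (unif_fin h).toFinset (f := fun g => X g f)
    IntegrableOn.finset
  rw [Finite.coe_toFinset, unif_res h] at h1
  rw [h1]
  induction (unif_fin h).toFinset using Finset.cons_induction with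
  | empty => rfl
  | cons a t ha ih =>
    rw [Finset.sum_cons, Finset.sum_cons, ← ih]
    rfl

/-- The limit law exists. -/
theorem exists_lim (hF : FER) {μ : ℕ → Measure (ℤ × ℤ → ℤ)} {X : ℕ → (ℤ × ℤ → ℤ) → Di Ω}
    (hX : ∀ n, AEMeasurable (X n) (μ n)) {m v : Te Ω → ℝ}
    (h : ∀ f, ToGauss atTop μ (fun n g => X n g f) (m f) (v f)) :
    ∃ Q : Measure (Di Ω), IsProbabilityMeasure Q ∧
      (∀ f : Te Ω, Q.map (fun T => T f) = gaussianReal (m f) (v f).toNNReal) ∧
      ∀ F : Di Ω → ℝ, Continuous F → (∃ M, ∀ T, |F T| ≤ M) →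
        Tendsto (fun n => ∫ g, F (X n g) ∂μ n) atTop (𝓝 (∫ T, F T ∂Q)) := by
  have hp : ∀ n, IsProbabilityMeasure (μ n) := (h 0).1
  obtain ⟨Q, h1, h2⟩ := hF Ω (fun n => ⟨(μ n).map (X n), Measure.isProbabilityMeasure_map (hX n)⟩)
    (fun f => ⟨gaussianReal (m f) (v f).toNNReal, inferInstance⟩) fun f => by
      refine ProbabilityMeasure.tendsto_iff_forall_integral_tendsto.2 fun F => ?_
      refine ((h f).2.2 F F.continuous ⟨‖F‖, fun x => F.norm_coe_le_norm x⟩).congr fun n => ?_
      show _ = ∫ x, F x ∂(((μ n).map (X n)).map fun T : Di Ω => T f)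
      rw [integral_map (meas_ev f).aemeasurable F.continuous.aestronglyMeasurable]
      exact (integral_map (hX n)
        (F.continuous.comp (cont_ev f)).measurable.aestronglyMeasurable).symm
  refine ⟨Q, Q.2, fun f => congrArg Subtype.val (h1 f), fun F hF ⟨M, hM⟩ => ?_⟩
  have h3 := ProbabilityMeasure.tendsto_iff_forall_integral_tendsto.1 h2
    (BoundedContinuousFunction.ofNormedAddCommGroup F hF M hM)
  refine h3.congr fun n => ?_
  exact integral_map (hX n) (hF.measurable.aestronglyMeasurable)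

/-- The one-dimensional laws of `U + c T`. -/
theorem map_aff {P : Measure (Di Ω)} {v : Te Ω → ℝ} (hv : ∀ f, 0 ≤ v f)
    (hP : ∀ f : Te Ω, P.map (fun T => T f) = gaussianReal 0 (v f).toNNReal) (U : Di Ω) {c : ℝ}
    (hc : 0 ≤ c) (f : Te Ω) : (P.map fun T => U + √c • T).map (fun T => T f) =
      gaussianReal (U f) (c * v f).toNNReal := by
  have h1 : Continuous fun T : Di Ω => U + √c • T := by fun_prop
  rw [Measure.map_map (meas_ev f) h1.measurable]
  have h2 : (fun T : Di Ω => T f) ∘ (fun T => U + √c • T) =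
      (fun x => U f + x) ∘ (fun x => √c * x) ∘ fun T : Di Ω => T f := rfl
  rw [h2, ← Measure.map_map (by fun_prop) ((by fun_prop : Measurable fun x => √c * x).comp
    (meas_ev f)), ← Measure.map_map (by fun_prop) (meas_ev f), hP, gaussianReal_map_const_mul,
    gaussianReal_map_const_add, mul_zero, zero_add]
  congr 1
  ext
  simp only [NNReal.coe_mul, NNReal.coe_mk, Real.sq_sqrt hc, Real.coe_toNNReal _ (hv f),
    Real.coe_toNNReal _ (mul_nonneg hc (hv f))]

theorem inLaw_of (hF : FER) (hU : UNI) {μ : ℕ → Measure (ℤ × ℤ → ℤ)}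
    {X : ℕ → (ℤ × ℤ → ℤ) → Di Ω} (hX : ∀ n, AEMeasurable (X n) (μ n)) {P : Measure (Di Ω)}
    (hp : IsProbabilityMeasure P) {v : Te Ω → ℝ} (hv : ∀ f, 0 ≤ v f)
    (hP : ∀ f : Te Ω, P.map (fun T => T f) = gaussianReal 0 (v f).toNNReal) (U : Di Ω) {c : ℝ}
    (hc : 0 ≤ c) (h : ∀ f, ToGauss atTop μ (fun n g => X n g f) (U f) (c * v f)) :
    InLaw μ X P fun T => U + √c • T := by
  obtain ⟨Q, h1, h2, h3⟩ := exists_lim hF hX h
  have h4 : Continuous fun T : Di Ω => U + √c • T := by fun_prop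
  have h5 : Q = P.map fun T => U + √c • T :=
    hU Ω _ _ h1 (Measure.isProbabilityMeasure_map h4.measurable.aemeasurable) fun f => by
      rw [h2, map_aff hv hP U hc]
  refine ⟨fun n => ⟨(h 0).1 n, hX n⟩, fun F hF hM => ?_⟩
  have h6 := h3 F hF hM
  rwa [h5, integral_map h4.measurable.aemeasurable hF.measurable.aestronglyMeasurable] at h6

/-- Sequences of distributions which converge pointwise converge. -/
theorem tendsto_of (hF : FER) (hU : UNI) {M : ℕ → Di Ω} {U : Di Ω}
    (h : ∀ f, Tendsto (fun n => M n f) atTop (𝓝 (U f))) : Tendsto M atTop (𝓝 U) := by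
  have e : ∀ (T : Di Ω) (f : Te Ω),
      (diracProba T).map (meas_ev f).aemeasurable = diracProba (T f) := fun T f =>
    Subtype.ext (Measure.map_dirac' (meas_ev f) T)
  obtain ⟨Q, h1, h2⟩ := hF Ω (fun n => diracProba (M n)) (fun f => diracProba (U f)) fun f => by
    simp only [e]
    exact (continuous_diracProba.tendsto _).comp (h f)
  have h3 : Q = diracProba U := Subtype.ext (hU Ω _ _ Q.2 (diracProba U).2 fun f =>
    (congrArg Subtype.val (h1 f)).trans (congrArg Subtype.val (e U f)).symm)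
  rw [h3] at h2
  have h4 := (tendsto_diracProba_iff_tendsto (x := U) (map M atTop)).1 h2
  exact h4

/-- Second moments. -/
theorem sq_gauss {P : Measure (Di Ω)} {f : Te Ω} {v : NNReal}
    (h : P.map (fun T => T f) = gaussianReal 0 v) :
    Integrable (fun T : Di Ω => T f * T f) P ∧ ∫ T, T f * T f ∂P = v := by
  have h1 : Integrable (fun x : ℝ => x * x) (gaussianReal 0 v) := by
    have := (memLp_id_gaussianReal (μ := 0) (v := v) 2).integrable_sq
    simpa only [id, sq] using this
  have h2 : ∫ x, x * x ∂gaussianReal 0 v = v := by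
    have := variance_fun_id_gaussianReal (μ := 0) (v := v)
    rw [variance_eq_integral measurable_id'.aemeasurable] at this
    simpa only [integral_id_gaussianReal, sub_zero, sq] using this
  rw [← h] at h1 h2
  have hm : AEStronglyMeasurable (fun x : ℝ => x * x) (P.map fun T => T f) := by fun_prop
  rw [integral_map (meas_ev f).aemeasurable hm] at h2
  exact ⟨(integrable_map_measure hm (meas_ev f).aemeasurable).1 h1, h2⟩

theorem isField_iff {G : ℂ → ℂ → ℝ} {v : Te Ω → ℝ} (hv : ∀ f, 0 ≤ v f)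
    (h1 : ∀ f : Te Ω, (∫ z in (Ω : Set ℂ), ∫ w in (Ω : Set ℂ), f z * G z w * f w) = v f)
    (h2 : ∀ f g : Te Ω, (∫ z in (Ω : Set ℂ), ∫ w in (Ω : Set ℂ), f z * G z w * g w) =
      (v (f + g) - v (f - g)) / 4) (P : Measure (Di Ω)) :
    IsField G P ↔ IsProbabilityMeasure P ∧
      ∀ f : Te Ω, P.map (fun T => T f) = gaussianReal 0 (v f).toNNReal := by
  constructor
  · rintro ⟨a, b, c⟩
    refine ⟨a, fun f => ?_⟩
    obtain ⟨w, hw⟩ := b f
    have h3 := (sq_gauss hw).2
    rw [c, h1] at h3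
    rw [hw, h3, Real.toNNReal_coe]
  · rintro ⟨a, b⟩
    refine ⟨a, fun f => ⟨_, b f⟩, fun f g => ?_⟩
    obtain ⟨i1, e1⟩ := sq_gauss (b (f + g))
    obtain ⟨i2, e2⟩ := sq_gauss (b (f - g))
    rw [Real.coe_toNNReal _ (hv _)] at e1 e2
    rw [h2, ← e1, ← e2, ← integral_sub i1 i2, ← integral_div]
    refine integral_congr_ae (ae_of_all _ fun T => ?_)
    simp only [map_add, map_sub]
    ring

end Vale.Agent.P153D
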